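import Vale.Agent.P088.R2.H960.C.AI3
import Vale.Agent.P088.R2.H31.EP.Wgt

/-!
# Zone C, region I: the cells of the curved weight, part 1

Differences of `u = l(x) + l(y)`, of `r² = ⟨g(p) q, q⟩` and of their derivatives at two points.
-/

open Set MeasureTheory
open scoped ContDiff Matrix

noncomputable section

namespace Vale.Agent.P088.R2.H960.C

open Vale.Agent.P088.LR Vale.Agent.P088.HY Vale.Agent.P088.R2.H644 Vale.Agent.P088.R2
open Vale.Agent.P088.R2.H464.Cu (mid dif bf rq dg Hv)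

variable {n : ℕ}

/-- Bounds of the level and of the metric at a point. -/
structure Bd (L₁ ε ε₂ : ℝ) (l : V n → ℝ) (g : MF n) (x : V n) : Prop where
  l1 : ‖fderiv ℝ l x‖ ≤ L₁
  l2 : ‖fderiv ℝ (fderiv ℝ l) x‖ ≤ ε₂
  g0 : ∀ i j, |g x i j - (1 : Matrix (Fin n) (Fin n) ℝ) i j| ≤ ε
  g1 : ∀ i j, ‖fderiv ℝ (fun y => g y i j) x‖ ≤ ε₂
  g2 : ∀ i j, ‖fderiv ℝ (fderiv ℝ fun y => g y i j) x‖ ≤ ε₂

/-- The data on a convex set. -/
structure Lg (L₁ ε ε₂ : ℝ) (l : V n → ℝ) (g : MF n) (B : Set (V n)) : Prop where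
  sl : ContDiff ℝ ∞ l
  sg : ∀ i j, ContDiff ℝ ∞ fun x => g x i j
  sy : ∀ x i j, g x i j = g x j i
  cv : Convex ℝ B
  bd : ∀ x ∈ B, Bd L₁ ε ε₂ l g x

/-- Two points. -/
structure Pr (B : Set (V n)) (z z' : VV n) : Prop where
  x : z.1 ∈ B
  y : z.2 ∈ B
  x' : z'.1 ∈ B
  y' : z'.2 ∈ B

theorem Pr.symm {B : Set (V n)} {z z' : VV n} (h : Pr B z z') : Pr B z' z := ⟨h.x', h.y', h.x, h.y⟩

/-- `‖q‖`. -/
def nq (z : VV n) : ℝ := ‖H205.CP.vq z‖

/-- `‖q - q'‖`. -/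
def dQ (z z' : VV n) : ℝ := ‖H205.CP.vq z - H205.CP.vq z'‖

/-- `‖p - p'‖`, `p = x + y`. -/
def dP (z z' : VV n) : ℝ := ‖H205.CP.vp z - H205.CP.vp z'‖

theorem nq_nn (z : VV n) : 0 ≤ nq z := norm_nonneg _
theorem dQ_nn (z z' : VV n) : 0 ≤ dQ z z' := norm_nonneg _
theorem dP_nn (z z' : VV n) : 0 ≤ dP z z' := norm_nonneg _

theorem dQ_comm (z z' : VV n) : dQ z z' = dQ z' z := norm_sub_rev _ _
theorem dP_comm (z z' : VV n) : dP z z' = dP z' z := norm_sub_rev _ _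

theorem dQ_le (z z' : VV n) : dQ z z' ≤ nq z + nq z' := norm_sub_le _ _

theorem nx (z z' : VV n) : ‖z.1 - z'.1‖ ≤ (dP z z' + dQ z z') / 2 := by
  have e : z.1 - z'.1 = (1 / 2 : ℝ) • ((H205.CP.vp z - H205.CP.vp z')
      + (H205.CP.vq z - H205.CP.vq z')) := by
    funext i
    simp only [H205.CP.vp, H205.CP.vq, Pi.sub_apply, Pi.add_apply, Pi.smul_apply, smul_eq_mul]
    ring
  rw [e, norm_smul]
  have := norm_add_le (H205.CP.vp z - H205.CP.vp z') (H205.CP.vq z - H205.CP.vq z')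
  unfold dP dQ
  rw [Real.norm_eq_abs, abs_of_pos (by norm_num : (0 : ℝ) < 1 / 2)]
  linarith

theorem ny (z z' : VV n) : ‖z.2 - z'.2‖ ≤ (dP z z' + dQ z z') / 2 := by
  have e : z.2 - z'.2 = (1 / 2 : ℝ) • ((H205.CP.vp z - H205.CP.vp z')
      - (H205.CP.vq z - H205.CP.vq z')) := by
    funext i
    simp only [H205.CP.vp, H205.CP.vq, Pi.sub_apply, Pi.add_apply, Pi.smul_apply, smul_eq_mul]
    ring
  rw [e, norm_smul]
  have := norm_sub_le (H205.CP.vp z - H205.CP.vp z') (H205.CP.vq z - H205.CP.vq z')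
  unfold dP dQ
  rw [Real.norm_eq_abs, abs_of_pos (by norm_num : (0 : ℝ) < 1 / 2)]
  linarith

theorem nm (z z' : VV n) : ‖mid z - mid z'‖ ≤ dP z z' := by
  have e : mid z - mid z' = (1 / 2 : ℝ) • (H205.CP.vp z - H205.CP.vp z') := by
    funext i
    simp only [mid, H205.CP.vp, Pi.sub_apply, Pi.add_apply, Pi.smul_apply, smul_eq_mul]
    ring
  rw [e, norm_smul, Real.norm_eq_abs, abs_of_pos (by norm_num : (0 : ℝ) < 1 / 2)]
  have := dP_nn z z'
  unfold dP at *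
  linarith

theorem qi_le (z : VV n) (i : Fin n) : |H205.CP.vq z i| ≤ nq z :=
  norm_le_pi_norm (H205.CP.vq z) i

theorem dqi_le (z z' : VV n) (i : Fin n) : |H205.CP.vq z i - H205.CP.vq z' i| ≤ dQ z z' :=
  norm_le_pi_norm (H205.CP.vq z - H205.CP.vq z') i

section

variable {L₁ ε ε₂ : ℝ} {l : V n → ℝ} {g : MF n} {B : Set (V n)} {z z' : VV n}

theorem Lg.lip {F : Type*} [NormedAddCommGroup F] [NormedSpace ℝ F] {f : V n → F} {M : ℝ}
    (h : Lg L₁ ε ε₂ l g B) (hf : ∀ x ∈ B, DifferentiableAt ℝ f x)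
    (hM : ∀ x ∈ B, ‖fderiv ℝ f x‖ ≤ M) {x y : V n} (hx : x ∈ B) (hy : y ∈ B) :
    ‖f x - f y‖ ≤ M * ‖x - y‖ := h.cv.norm_image_sub_le_of_norm_fderiv_le hf hM hy hx

theorem Lg.md (h : Lg L₁ ε ε₂ l g B) (hx : z.1 ∈ B) (hy : z.2 ∈ B) : mid z ∈ B := by
  have := h.cv hx hy (a := 1 / 2) (b := 1 / 2) (by norm_num) (by norm_num) (by norm_num)
  unfold H464.Cu.mid
  rwa [smul_add]

/-- `‖Dl(x) - Dl(y)‖`. -/
theorem Lg.dl (h : Lg L₁ ε ε₂ l g B) {x y : V n} (hx : x ∈ B) (hy : y ∈ B) :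
    ‖fderiv ℝ l x - fderiv ℝ l y‖ ≤ ε₂ * ‖x - y‖ :=
  h.lip (fun x _ => ((h.sl.fderiv_right (m := ∞) (by simp)).differentiable (by simp)) x)
    (fun x hx => (h.bd x hx).l2) hx hy

/-- `u`. -/
def u0 (l : V n → ℝ) (z : VV n) : ℝ := l z.1 + l z.2

theorem Lg.du (h : Lg L₁ ε ε₂ l g B) (p : Pr B z z') (hL : 0 ≤ L₁) (hε : 0 ≤ ε₂) :
    |u0 l z - u0 l z'| ≤ L₁ * dP z z' + ε₂ * (nq z + nq z') * dQ z z' := by
  set dx : V n := z.1 - z'.1 with hdx
  set dy : V n := z.2 - z'.2 with hdy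
  set X : ℝ → V n := fun t => z'.1 + t • dx with hX
  set Y : ℝ → V n := fun t => z'.2 + t • dy with hY
  have hXB : ∀ t ∈ Icc (0 : ℝ) 1, X t ∈ B := fun t ht => by
    have := h.cv p.x' p.x (a := 1 - t) (b := t) (by linarith [ht.2]) ht.1 (by ring)
    have e : X t = (1 - t) • z'.1 + t • z.1 := by
      simp only [hX, hdx, smul_sub, sub_smul, one_smul]; abel
    rwa [e]
  have hYB : ∀ t ∈ Icc (0 : ℝ) 1, Y t ∈ B := fun t ht => by
    have := h.cv p.y' p.y (a := 1 - t) (b := t) (by linarith [ht.2]) ht.1 (by ring)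
    have e : Y t = (1 - t) • z'.2 + t • z.2 := by
      simp only [hY, hdy, smul_sub, sub_smul, one_smul]; abel
    rwa [e]
  have dX : ∀ t, HasDerivAt X dx t := fun t => by
    have := ((hasDerivAt_id t).smul_const dx).const_add z'.1
    rw [one_smul] at this
    exact this
  have dY : ∀ t, HasDerivAt Y dy t := fun t => by
    have := ((hasDerivAt_id t).smul_const dy).const_add z'.2
    rw [one_smul] at this
    exact this
  have hl : ∀ x, HasFDerivAt l (fderiv ℝ l x) x := fun x =>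
    ((h.sl.differentiable (by simp)) x).hasFDerivAt
  have hd : ∀ t, HasDerivAt (fun t => l (X t) + l (Y t))
      (fderiv ℝ l (X t) dx + fderiv ℝ l (Y t) dy) t := fun t =>
    ((hl (X t)).comp_hasDerivAt t (dX t)).add ((hl (Y t)).comp_hasDerivAt t (dY t))
  set D : V n := H205.CP.vp z - H205.CP.vp z' with hD
  set Q : V n := H205.CP.vq z - H205.CP.vq z' with hQ
  have ex : dx = (1 / 2 : ℝ) • D + (1 / 2 : ℝ) • Q := by
    funext i
    simp only [hdx, hD, hQ, H205.CP.vp, H205.CP.vq, Pi.sub_apply, Pi.add_apply, Pi.smul_apply,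
      smul_eq_mul]
    ring
  have ey : dy = (1 / 2 : ℝ) • D - (1 / 2 : ℝ) • Q := by
    funext i
    simp only [hdy, hD, hQ, H205.CP.vp, H205.CP.vq, Pi.sub_apply, Pi.add_apply, Pi.smul_apply,
      smul_eq_mul]
    ring
  have bound : ∀ t ∈ Icc (0 : ℝ) 1, ‖fderiv ℝ l (X t) dx + fderiv ℝ l (Y t) dy‖
      ≤ L₁ * dP z z' + ε₂ * (nq z + nq z') * dQ z z' := by
    intro t ht
    have e : fderiv ℝ l (X t) dx + fderiv ℝ l (Y t) dy
        = (1 / 2) * (fderiv ℝ l (X t) D + fderiv ℝ l (Y t) D)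
          + (1 / 2) * ((fderiv ℝ l (X t) - fderiv ℝ l (Y t)) Q) := by
      rw [ex, ey]
      simp only [map_add, map_sub, map_smul, smul_eq_mul, _root_.sub_apply]
      ring
    rw [e]
    have h1 : ‖fderiv ℝ l (X t) D‖ ≤ L₁ * ‖D‖ :=
      (ContinuousLinearMap.le_opNorm _ _).trans
        (mul_le_mul_of_nonneg_right (h.bd _ (hXB t ht)).l1 (norm_nonneg _))
    have h2 : ‖fderiv ℝ l (Y t) D‖ ≤ L₁ * ‖D‖ :=
      (ContinuousLinearMap.le_opNorm _ _).trans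
        (mul_le_mul_of_nonneg_right (h.bd _ (hYB t ht)).l1 (norm_nonneg _))
    have h3 : ‖(fderiv ℝ l (X t) - fderiv ℝ l (Y t)) Q‖ ≤ ε₂ * ‖X t - Y t‖ * ‖Q‖ :=
      (ContinuousLinearMap.le_opNorm _ _).trans
        (mul_le_mul_of_nonneg_right (h.dl (hXB t ht) (hYB t ht)) (norm_nonneg _))
    have h4 : ‖X t - Y t‖ ≤ nq z + nq z' := by
      have e2 : X t - Y t = (1 - t) • H205.CP.vq z' + t • H205.CP.vq z := by
        funext i
        simp only [hX, hY, hdx, hdy, H205.CP.vq, Pi.sub_apply, Pi.add_apply, Pi.smul_apply,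
          smul_eq_mul]
        ring
      rw [e2]
      refine (norm_add_le _ _).trans ?_
      rw [norm_smul, norm_smul, Real.norm_eq_abs, Real.norm_eq_abs, abs_of_nonneg ht.1,
        abs_of_nonneg (by linarith [ht.2])]
      have k1 := nq_nn z
      have k2 := nq_nn z'
      unfold nq at *
      nlinarith [ht.1, ht.2]
    have h5 : ε₂ * ‖X t - Y t‖ * ‖Q‖ ≤ ε₂ * (nq z + nq z') * ‖Q‖ :=
      mul_le_mul_of_nonneg_right (mul_le_mul_of_nonneg_left h4 hε) (norm_nonneg _)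
    have h6 := norm_add_le (1 / 2 * (fderiv ℝ l (X t) D + fderiv ℝ l (Y t) D))
      (1 / 2 * ((fderiv ℝ l (X t) - fderiv ℝ l (Y t)) Q))
    have h7 := norm_add_le (fderiv ℝ l (X t) D) (fderiv ℝ l (Y t) D)
    rw [norm_mul, norm_mul, Real.norm_eq_abs (1 / 2),
      abs_of_pos (by norm_num : (0 : ℝ) < 1 / 2)] at h6
    have e3 : ‖D‖ = dP z z' := rfl
    have e4 : ‖Q‖ = dQ z z' := rfl
    rw [e3] at h1 h2
    rw [e4] at h3 h5
    have h8 : 0 ≤ ε₂ * (nq z + nq z') * dQ z z' :=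
      mul_nonneg (mul_nonneg hε (add_nonneg (nq_nn _) (nq_nn _))) (dQ_nn _ _)
    linarith
  have key := norm_image_sub_le_of_norm_deriv_le_segment_01'
    (f := fun t => l (X t) + l (Y t)) (f' := fun t => fderiv ℝ l (X t) dx + fderiv ℝ l (Y t) dy)
    (fun t _ => (hd t).hasDerivWithinAt) (fun t ht => bound t ⟨ht.1, ht.2.le⟩)
  have e1 : l (X 1) + l (Y 1) = u0 l z := by
    simp only [hX, hY, hdx, hdy, one_smul, add_sub_cancel, u0]
  have e0 : l (X 0) + l (Y 0) = u0 l z' := by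
    simp only [hX, hY, zero_smul, add_zero, u0]
  simp only [e1, e0] at key
  exact key

/-- `∂_i l`. -/
def lI (l : V n → ℝ) (i : Fin n) (x : V n) : ℝ := fderiv ℝ l x (Pi.single i 1)

theorem n1 (i : Fin n) : ‖(Pi.single i 1 : V n)‖ ≤ 1 := by
  rw [pi_norm_le_iff_of_nonneg zero_le_one]
  intro j
  rw [Pi.single_apply]
  split_ifs <;> simp

theorem op1 {f : V n →L[ℝ] ℝ} {M : ℝ} (hf : ‖f‖ ≤ M) (i : Fin n) : |f (Pi.single i 1)| ≤ M := by
  have h1 := ContinuousLinearMap.le_opNorm f (Pi.single i 1)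
  rw [Real.norm_eq_abs] at h1
  have h2 : ‖f‖ * ‖(Pi.single i 1 : V n)‖ ≤ ‖f‖ * 1 :=
    mul_le_mul_of_nonneg_left (n1 i) (norm_nonneg _)
  linarith

theorem Lg.lI_le (h : Lg L₁ ε ε₂ l g B) {x : V n} (hx : x ∈ B) (i : Fin n) : |lI l i x| ≤ L₁ :=
  op1 (h.bd x hx).l1 i

theorem Lg.lI_sub (h : Lg L₁ ε ε₂ l g B) {x y : V n} (hx : x ∈ B) (hy : y ∈ B) (i : Fin n) :
    |lI l i x - lI l i y| ≤ ε₂ * ‖x - y‖ := op1 (f := fderiv ℝ l x - fderiv ℝ l y) (h.dl hx hy) i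

/-- `∂_{q_i} u`. -/
def ai (l : V n → ℝ) (i : Fin n) (z : VV n) : ℝ := (lI l i z.1 - lI l i z.2) / 2

/-- `∂_{p_i} u`. -/
def bi (l : V n → ℝ) (i : Fin n) (z : VV n) : ℝ := lI l i z.1 + lI l i z.2

theorem Lg.ai_le (h : Lg L₁ ε ε₂ l g B) (hx : z.1 ∈ B) (hy : z.2 ∈ B) (hε : 0 ≤ ε₂)
    (i : Fin n) : |ai l i z| ≤ ε₂ * nq z := by
  have h1 := h.lI_sub hx hy i
  have e : ‖z.1 - z.2‖ = nq z := rfl
  rw [e] at h1
  have h2 := mul_nonneg hε (nq_nn z)
  unfold ai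
  rw [abs_div, abs_two]
  linarith

theorem Lg.ai_sub (h : Lg L₁ ε ε₂ l g B) (p : Pr B z z') (hε : 0 ≤ ε₂) (i : Fin n) :
    |ai l i z - ai l i z'| ≤ ε₂ * (dP z z' + dQ z z') := by
  have h1 := h.lI_sub p.x p.x' i
  have h2 := h.lI_sub p.y p.y' i
  have h3 := mul_le_mul_of_nonneg_left (nx z z') hε
  have h4 := mul_le_mul_of_nonneg_left (ny z z') hε
  have h5 : 0 ≤ ε₂ * (dP z z' + dQ z z') :=
    mul_nonneg hε (add_nonneg (dP_nn _ _) (dQ_nn _ _))
  have e : ai l i z - ai l i z'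
      = ((lI l i z.1 - lI l i z'.1) - (lI l i z.2 - lI l i z'.2)) / 2 := by unfold ai; ring
  rw [e, abs_div, abs_two]
  have h6 := abs_sub (lI l i z.1 - lI l i z'.1) (lI l i z.2 - lI l i z'.2)
  linarith

theorem Lg.bi_le (h : Lg L₁ ε ε₂ l g B) (hx : z.1 ∈ B) (hy : z.2 ∈ B) (i : Fin n) :
    |bi l i z| ≤ 2 * L₁ := by
  have h1 := h.lI_le hx i
  have h2 := h.lI_le hy i
  unfold bi
  have := abs_add_le (lI l i z.1) (lI l i z.2)
  linarith

theorem Lg.bi_sub (h : Lg L₁ ε ε₂ l g B) (p : Pr B z z') (hε : 0 ≤ ε₂) (i : Fin n) :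
    |bi l i z - bi l i z'| ≤ ε₂ * (dP z z' + dQ z z') := by
  have h1 := h.lI_sub p.x p.x' i
  have h2 := h.lI_sub p.y p.y' i
  have h3 := mul_le_mul_of_nonneg_left (nx z z') hε
  have h4 := mul_le_mul_of_nonneg_left (ny z z') hε
  have e : bi l i z - bi l i z'
      = (lI l i z.1 - lI l i z'.1) + (lI l i z.2 - lI l i z'.2) := by unfold bi; ring
  rw [e]
  have h6 := abs_add_le (lI l i z.1 - lI l i z'.1) (lI l i z.2 - lI l i z'.2)
  linarith

/-- `(g(p) q)_i`. -/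
def Gq (g : MF n) (i : Fin n) (z : VV n) : ℝ := ∑ j, g (mid z) i j * H205.CP.vq z j

theorem sum_le_c {f : Fin n → ℝ} {M : ℝ} (h : ∀ j, |f j| ≤ M) : |∑ j, f j| ≤ n * M := by
  refine (Finset.abs_sum_le_sum_abs _ _).trans ((Finset.sum_le_sum fun j _ => h j).trans ?_)
  rw [Finset.sum_const, Finset.card_univ, nsmul_eq_mul, Fintype.card_fin]

theorem Lg.gm (h : Lg L₁ ε ε₂ l g B) (p : Pr B z z') (hε : 0 ≤ ε₂) (i j : Fin n) :
    |g (mid z) i j - g (mid z') i j| ≤ ε₂ * dP z z' := by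
  have h1 := h.lip (f := fun x => g x i j) (M := ε₂)
    (fun x _ => ((h.sg i j).differentiable (by simp)) x)
    (fun x hx => (h.bd x hx).g1 i j) (h.md p.x p.y) (h.md p.x' p.y')
  rw [Real.norm_eq_abs] at h1
  exact h1.trans (mul_le_mul_of_nonneg_left (nm z z') hε)

theorem one_sum (z : VV n) (i : Fin n) :
    ∑ j, (1 : Matrix (Fin n) (Fin n) ℝ) i j * H205.CP.vq z j = H205.CP.vq z i := by
  simp [Matrix.one_apply]

theorem Lg.Gq_le (h : Lg L₁ ε ε₂ l g B) (hx : z.1 ∈ B) (hy : z.2 ∈ B) (i : Fin n) :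
    |Gq g i z - H205.CP.vq z i| ≤ n * (ε * nq z) := by
  have e : Gq g i z - H205.CP.vq z i
      = ∑ j, (g (mid z) i j - (1 : Matrix (Fin n) (Fin n) ℝ) i j) * H205.CP.vq z j := by
    rw [← one_sum z i]
    unfold Gq
    rw [← Finset.sum_sub_distrib]
    exact Finset.sum_congr rfl fun j _ => by ring
  rw [e]
  refine sum_le_c fun j => ?_
  rw [abs_mul]
  have h1 := (h.bd _ (h.md hx hy)).g0 i j
  exact mul_le_mul h1 (qi_le z j) (abs_nonneg _) ((abs_nonneg _).trans h1)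

theorem Lg.Gq_sub (h : Lg L₁ ε ε₂ l g B) (p : Pr B z z') (hε : 0 ≤ ε₂) (i : Fin n) :
    |(Gq g i z - H205.CP.vq z i) - (Gq g i z' - H205.CP.vq z' i)|
      ≤ n * (ε * dQ z z' + ε₂ * dP z z' * nq z') := by
  have e : (Gq g i z - H205.CP.vq z i) - (Gq g i z' - H205.CP.vq z' i)
      = ∑ j, ((g (mid z) i j - (1 : Matrix (Fin n) (Fin n) ℝ) i j)
          * (H205.CP.vq z j - H205.CP.vq z' j)
        + (g (mid z) i j - g (mid z') i j) * H205.CP.vq z' j) := by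
    rw [← one_sum z i, ← one_sum z' i]
    unfold Gq
    rw [← Finset.sum_sub_distrib, ← Finset.sum_sub_distrib, ← Finset.sum_sub_distrib]
    exact Finset.sum_congr rfl fun j _ => by ring
  rw [e]
  refine sum_le_c fun j => ?_
  refine (abs_add_le _ _).trans ?_
  rw [abs_mul, abs_mul]
  have h1 := (h.bd _ (h.md p.x p.y)).g0 i j
  have h2 := h.gm p hε i j
  exact add_le_add (mul_le_mul h1 (dqi_le z z' j) (abs_nonneg _) ((abs_nonneg _).trans h1))
    (mul_le_mul h2 (qi_le z' j) (abs_nonneg _) ((abs_nonneg _).trans h2))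

/-! ### Quadratic forms of `q` -/

/-- Bound of a quadratic form of `q`. -/
theorem bf_le {G : Matrix (Fin n) (Fin n) ℝ} {M : ℝ} (hG : ∀ i j, |G i j| ≤ M) (z : VV n) :
    |bf G (dif z) (dif z)| ≤ n * (n * (M * nq z ^ 2)) := by
  unfold bf
  refine sum_le_c fun i => sum_le_c fun j => ?_
  rw [abs_mul, abs_mul]
  have h1 : |dif z i| ≤ nq z := qi_le z i
  have h2 : |dif z j| ≤ nq z := qi_le z j
  have h3 := (abs_nonneg _).trans (hG i j)
  calc |G i j| * |dif z i| * |dif z j| ≤ M * nq z * nq z := by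
        have := hG i j
        have := nq_nn z
        gcongr
    _ = _ := by ring

/-- Difference of a quadratic form of `q`. -/
theorem bf_sub {G G' : Matrix (Fin n) (Fin n) ℝ} {M δ : ℝ} (hG : ∀ i j, |G i j| ≤ M)
    (hG' : ∀ i j, |G i j - G' i j| ≤ δ) (z z' : VV n) :
    |bf G (dif z) (dif z) - bf G' (dif z') (dif z')|
      ≤ n * (n * (M * ((nq z + nq z') * dQ z z') + δ * nq z' ^ 2)) := by
  have e : bf G (dif z) (dif z) - bf G' (dif z') (dif z')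
      = ∑ i, ∑ j, (G i j * (dif z i * dif z j - dif z' i * dif z' j)
        + (G i j - G' i j) * (dif z' i * dif z' j)) := by
    unfold bf
    rw [← Finset.sum_sub_distrib]
    refine Finset.sum_congr rfl fun i _ => ?_
    rw [← Finset.sum_sub_distrib]
    exact Finset.sum_congr rfl fun j _ => by ring
  rw [e]
  refine sum_le_c fun i => sum_le_c fun j => ?_
  refine (abs_add_le _ _).trans ?_
  rw [abs_mul, abs_mul (G i j - G' i j)]
  have M0 := (abs_nonneg _).trans (hG i j)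
  have δ0 := (abs_nonneg _).trans (hG' i j)
  have h1 : |dif z i| ≤ nq z := qi_le z i
  have h1' : |dif z' i| ≤ nq z' := qi_le z' i
  have h2' : |dif z' j| ≤ nq z' := qi_le z' j
  have h3 : |dif z i - dif z' i| ≤ dQ z z' := dqi_le z z' i
  have h4 : |dif z j - dif z' j| ≤ dQ z z' := dqi_le z z' j
  have h5 : |dif z i * dif z j - dif z' i * dif z' j| ≤ (nq z + nq z') * dQ z z' := by
    have e2 : dif z i * dif z j - dif z' i * dif z' j
        = dif z i * (dif z j - dif z' j) + (dif z i - dif z' i) * dif z' j := by ring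
    rw [e2]
    refine (abs_add_le _ _).trans ?_
    rw [abs_mul, abs_mul]
    have k1 := mul_le_mul h1 h4 (abs_nonneg _) (nq_nn z)
    have k2 := mul_le_mul h3 h2' (abs_nonneg _) (dQ_nn z z')
    linarith
  have h6 : |dif z' i * dif z' j| ≤ nq z' ^ 2 := by
    rw [abs_mul, pow_two]
    exact mul_le_mul h1' h2' (abs_nonneg _) (nq_nn z')
  exact add_le_add (mul_le_mul (hG i j) h5 (abs_nonneg _) M0)
    (mul_le_mul (hG' i j) h6 (abs_nonneg _) δ0)

theorem Lg.g_le (h : Lg L₁ ε ε₂ l g B) (hε1 : ε ≤ 1) {x : V n} (hx : x ∈ B) (i j : Fin n) :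
    |g x i j| ≤ 2 := by
  have h1 := (h.bd x hx).g0 i j
  have h2 : |(1 : Matrix (Fin n) (Fin n) ℝ) i j| ≤ 1 := by
    rw [Matrix.one_apply]; split_ifs <;> simp
  have e : g x i j = (g x i j - (1 : Matrix (Fin n) (Fin n) ℝ) i j)
    + (1 : Matrix (Fin n) (Fin n) ℝ) i j := by ring
  rw [e]
  have := abs_add_le (g x i j - (1 : Matrix (Fin n) (Fin n) ℝ) i j)
    ((1 : Matrix (Fin n) (Fin n) ℝ) i j)
  linarith

theorem r2_eq (g : MF n) (z : VV n) : H31.EP.r2 g z = bf (g (mid z)) (dif z) (dif z) := by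
  unfold H31.EP.r2 rq; ring

theorem Lg.r2_le (h : Lg L₁ ε ε₂ l g B) (hε1 : ε ≤ 1) (hx : z.1 ∈ B) (hy : z.2 ∈ B) :
    |H31.EP.r2 g z| ≤ n * (n * (2 * nq z ^ 2)) := by
  rw [r2_eq]
  exact bf_le (h.g_le hε1 (h.md hx hy)) z

theorem Lg.r2_sub (h : Lg L₁ ε ε₂ l g B) (hε1 : ε ≤ 1) (p : Pr B z z') (hε : 0 ≤ ε₂) :
    |H31.EP.r2 g z - H31.EP.r2 g z'|
      ≤ n * (n * (2 * ((nq z + nq z') * dQ z z') + ε₂ * dP z z' * nq z' ^ 2)) := by
  rw [r2_eq, r2_eq]
  exact bf_sub (h.g_le hε1 (h.md p.x p.y)) (h.gm p hε) z z'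

/-- `r² ≥ (1 - n² ε) |q|²`. -/
theorem Lg.r2_ge (h : Lg L₁ ε ε₂ l g B) (hx : z.1 ∈ B) (hy : z.2 ∈ B) :
    |H31.EP.r2 g z - qq z| ≤ n * (n * (ε * nq z ^ 2)) := by
  have e : H31.EP.r2 g z - qq z
      = bf (g (mid z) - 1) (dif z) (dif z) := by
    rw [r2_eq]
    have : qq z = bf 1 (dif z) (dif z) := by
      unfold bf
      rw [qq_eq]
      refine Finset.sum_congr rfl fun i _ => ?_
      rw [Finset.sum_eq_single i]
      · simp only [Matrix.one_apply_eq, one_mul]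
        have : qv i z = dif z i := rfl
        rw [this]; ring
      · intro j _ hj
        rw [Matrix.one_apply_ne (Ne.symm hj)]; ring
      · intro hi; exact absurd (Finset.mem_univ _) hi
    rw [this]
    unfold bf
    rw [← Finset.sum_sub_distrib]
    refine Finset.sum_congr rfl fun i _ => ?_
    rw [← Finset.sum_sub_distrib]
    exact Finset.sum_congr rfl fun j _ => by rw [Matrix.sub_apply]; ring
  rw [e]
  exact bf_le (fun i j => by rw [Matrix.sub_apply]; exact (h.bd _ (h.md hx hy)).g0 i j) z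

/-- `∂_{p_i} r²`. -/
def hi (g : MF n) (i : Fin n) (z : VV n) : ℝ :=
  bf (dg (Pi.single i 1) g (mid z)) (dif z) (dif z)

theorem Lg.dg_le (h : Lg L₁ ε ε₂ l g B) {x : V n} (hx : x ∈ B) (k i j : Fin n) :
    |dg (Pi.single k 1) g x i j| ≤ ε₂ := op1 ((h.bd x hx).g1 i j) k

theorem Lg.dg_sub (h : Lg L₁ ε ε₂ l g B) (p : Pr B z z') (hε : 0 ≤ ε₂) (k i j : Fin n) :
    |dg (Pi.single k 1) g (mid z) i j - dg (Pi.single k 1) g (mid z') i j| ≤ ε₂ * dP z z' := by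
  have h1 := h.lip (f := fderiv ℝ fun y => g y i j) (M := ε₂)
    (fun x _ => (((h.sg i j).fderiv_right (m := ∞) (by simp)).differentiable (by simp)) x)
    (fun x hx => (h.bd x hx).g2 i j) (h.md p.x p.y) (h.md p.x' p.y')
  exact op1 (f := (fderiv ℝ fun y => g y i j) (mid z) - (fderiv ℝ fun y => g y i j) (mid z'))
    (h1.trans (mul_le_mul_of_nonneg_left (nm z z') hε)) k

theorem Lg.hi_le (h : Lg L₁ ε ε₂ l g B) (hx : z.1 ∈ B) (hy : z.2 ∈ B) (i : Fin n) :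
    |hi g i z| ≤ n * (n * (ε₂ * nq z ^ 2)) :=
  bf_le (h.dg_le (h.md hx hy) i) z

theorem Lg.hi_sub (h : Lg L₁ ε ε₂ l g B) (p : Pr B z z') (hε : 0 ≤ ε₂) (i : Fin n) :
    |hi g i z - hi g i z'|
      ≤ n * (n * (ε₂ * ((nq z + nq z') * dQ z z') + ε₂ * dP z z' * nq z' ^ 2)) :=
  bf_sub (h.dg_le (h.md p.x p.y) i) (h.dg_sub p hε i) z z'

end

end Vale.Agent.P088.R2.H960.C
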