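import Vale.Agent.P088.R2.H960.C.CelA
import Vale.Agent.P088.R2.H960.C.AI

/-!
# Zone C, region I: the cells of the curved weight, part 2

`W0 = φ(u) + G(u) S(r²)`, `u = l(x) + l(y)`, `r² = ⟨g(p) q, q⟩`: the structure `Cel`.
-/

open Set MeasureTheory
open scoped ContDiff Matrix

noncomputable section

namespace Vale.Agent.P088.R2.H960.C

open Vale.Agent.P088.LR Vale.Agent.P088.HY Vale.Agent.P088.R2.H644 Vale.Agent.P088.R2
open Vale.Agent.P088.R2.H464.Cu (mid dif bf rq dg Hv)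

variable {n : ℕ}

/-! ### Functions of the level -/

/-- Differences on an interval where everything is comparable. -/
theorem seg {f f' h : ℝ → ℝ} (d : ∀ s, HasDerivAt f (f' s) s) {M : ℝ} (hM : 0 ≤ M) {I : Set ℝ}
    (oc : I.OrdConnected) {u v : ℝ} (hu : u ∈ I) (hv : v ∈ I)
    (h2 : ∀ s ∈ I, |s - u| ≤ |v - u| → h s ≤ 2 * h u) (hf : ∀ s ∈ I, |f' s| ≤ M * h s) :
    |f u - f v| ≤ 2 * M * h u * |u - v| := by
  refine mv (I := uIcc u v) d ordConnected_uIcc (M := 2 * M * h u) (fun s hs => ?_)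
    left_mem_uIcc right_mem_uIcc
  have hsI : s ∈ I := oc.uIcc_subset hu hv hs
  have h3 := h2 s hsI (abs_sub_left_of_mem_uIcc hs)
  have h4 := mul_le_mul_of_nonneg_left h3 hM
  linarith [hf s hsI]

variable {Cs Cd : ℝ} {w : H205.CP.WF} {pf : H205.CP.PF} {I : Set ℝ}

/-- All differences of functions of the level. -/
theorem lev (oc : I.OrdConnected) (hCd : 0 < Cd) (hw : H205.CP.WD 1 Cd w I) {u v : ℝ} (hu : u ∈ I) (hv : v ∈ I)
    (huv : |u - v| ≤ 1 / (2 * (Cd + 3))) :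
    w.G v ≤ 2 * w.G u ∧ |w.G u - w.G v| ≤ 4 * w.G u * |u - v| ∧
    |w.G₁ u - w.G₁ v| ≤ 4 * w.G u * |u - v| ∧ |w.φ₁ u - w.φ₁ v| ≤ 2 * w.φ₂ u * |u - v| ∧
    |w.φ₂ u - w.φ₂ v| ≤ 2 * Cd * w.φ₂ u * |u - v| := by
  have g1 : ∀ s ∈ I, |w.G₁ s| ≤ 2 * w.G s := fun s hs => by
    have h1 := abs_le.1 (hw.g1 s hs)
    have h2 := hw.gp s hs
    rw [abs_le]; constructor <;> linarith [h1.1, h1.2]
  have g2 : ∀ s ∈ I, |w.G₂ s| ≤ 2 * w.G s := fun s hs => by
    have h1 := abs_le.1 (hw.g2 s hs)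
    have h2 := hw.gp s hs
    rw [abs_le]; constructor <;> linarith [h1.1, h1.2]
  have hG : ∀ s ∈ I, |s - u| ≤ |v - u| → w.G s ≤ 2 * w.G u := fun s hs h => by
    refine slow_two (Cd := 2) (by norm_num) oc hw.e1 g1 hw.gp hs hu ?_
    rw [abs_sub_comm v u] at h
    refine (h.trans huv).trans ?_
    apply one_div_le_one_div_of_le (by norm_num)
    linarith
  have hK : ∀ s ∈ I, |s - u| ≤ |v - u| → w.φ₂ s ≤ 2 * w.φ₂ u := fun s hs h => by
    refine slow_two hCd oc hw.d3 (fun s hs => (hw.kd s hs).1) hw.kp hs hu ?_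
    rw [abs_sub_comm v u] at h
    refine (h.trans huv).trans ?_
    apply one_div_le_one_div_of_le (by positivity)
    linarith
  refine ⟨hG v hv le_rfl, ?_, ?_, ?_, ?_⟩
  · have := seg hw.e1 (M := 2) (by norm_num) oc hu hv hG g1
    linarith
  · have := seg hw.e2 (M := 2) (by norm_num) oc hu hv hG g2
    linarith
  · have := seg hw.d2 (M := 1) (by norm_num) oc hu hv hK
      (fun s hs => by rw [abs_of_pos (hw.kp s hs), one_mul])
    linarith
  · have := seg hw.d3 (M := Cd) hCd.le oc hu hv hK (fun s hs => (hw.kd s hs).1)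
    linarith

end Vale.Agent.P088.R2.H960.C
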