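import Vale.Agent.P088.R2.H960.C.CelB
import Vale.Agent.P088.R2.H960.C.CelN

/-!
# Zone C, region I: the cells of the curved weight, part 3

`cel_W` : the structure `Cel` for `W = φ(u) + G(u) S(r²)`, `u = l(x) + l(y)`, `r² = ⟨g(p) q, q⟩`.
-/

open Set MeasureTheory Filter
open scoped ContDiff Matrix Topology

noncomputable section

namespace Vale.Agent.P088.R2.H960.C

open Vale.Agent.P088.LR Vale.Agent.P088.HY Vale.Agent.P088.R2.H644 Vale.Agent.P088.R2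
open Vale.Agent.P088.R2.H464.Cu (mid dif bf rq dg Hv)

variable {n : ℕ}

/-! ### Derivatives -/

theorem hv_comp {v z : VV n} {h : VV n → ℝ} {a f' : ℝ} {f : ℝ → ℝ} (hf : HasDerivAt f f' (h z))
    (hh : Hv v h a z) : Hv v (fun z => f (h z)) (f' * a) z := by
  have h1 := hf.comp_hasFDerivAt z hh.d.hasFDerivAt
  refine ⟨h1.differentiableAt, ?_⟩
  have h2 : fderiv ℝ (fun z => f (h z)) z = f' • fderiv ℝ h z := h1.fderiv
  rw [h2]
  simp only [_root_.smul_apply, smul_eq_mul, hh.e]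

theorem hv_u {l : V n → ℝ} (hl : ContDiff ℝ ∞ l) (v z : VV n) :
    Hv v (u0 l) (fderiv ℝ l z.1 v.1 + fderiv ℝ l z.2 v.2) z := by
  have d : ∀ x, DifferentiableAt ℝ l x := hl.differentiable (by simp)
  have h1 : HasFDerivAt (fun z : VV n => l z.1)
      ((fderiv ℝ l z.1).comp (ContinuousLinearMap.fst ℝ (V n) (V n))) z :=
    HasFDerivAt.comp z (d z.1).hasFDerivAt hasFDerivAt_fst
  have h2 : HasFDerivAt (fun z : VV n => l z.2)
      ((fderiv ℝ l z.2).comp (ContinuousLinearMap.snd ℝ (V n) (V n))) z :=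
    HasFDerivAt.comp z (d z.2).hasFDerivAt hasFDerivAt_snd
  have h3 := h1.add h2
  refine ⟨h3.differentiableAt, ?_⟩
  have h4 : fderiv ℝ (u0 l) z = _ := h3.fderiv
  rw [h4]
  rfl

theorem hv_r2 {g : MF n} (sg : ∀ i j, ContDiff ℝ ∞ fun x => g x i j)
    (sy : ∀ x i j, g x i j = g x j i) (v z : VV n) :
    Hv v (H31.EP.r2 g) (2 * (bf (g (mid z)) (dif v) (dif z) +
      1 / 2 * bf (dg (mid v) g (mid z)) (dif z) (dif z))) z :=
  (H464.Cu.rq_d (fun i j => ((sg i j).differentiable (by simp)) _) sy v).cmul 2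

theorem dif_va (i : Fin n) : dif (va i) = Pi.single i 1 := by
  funext j
  simp only [dif, va, Pi.sub_apply, Pi.smul_apply, Pi.neg_apply, smul_eq_mul]
  ring

theorem mid_va (i : Fin n) : mid (va i) = 0 := by
  funext j
  simp only [mid, va, Pi.smul_apply, Pi.add_apply, Pi.neg_apply, smul_eq_mul, Pi.zero_apply]
  ring

theorem dif_vb (i : Fin n) : dif (vb i) = 0 := by
  funext j
  simp only [dif, vb, Pi.sub_apply, Pi.zero_apply, sub_self]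

theorem mid_vb (i : Fin n) : mid (vb i) = Pi.single i 1 := by
  funext j
  simp only [mid, vb, Pi.smul_apply, Pi.add_apply, smul_eq_mul]
  ring

theorem bf_zero (G : Matrix (Fin n) (Fin n) ℝ) (b : V n) : bf G 0 b = 0 := by
  unfold bf; simp

theorem bf_dg0 (g : MF n) (x a b : V n) : bf (dg 0 g x) a b = 0 := by
  unfold bf dg; simp

theorem bf_single (G : Matrix (Fin n) (Fin n) ℝ) (i : Fin n) (b : V n) :
    bf G (Pi.single i 1) b = ∑ j, G i j * b j := by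
  unfold bf
  rw [Finset.sum_eq_single i]
  · simp
  · intro k _ hk
    simp [Pi.single_apply, hk]
  · intro h; exact absurd (Finset.mem_univ _) h

/-- The weight. -/
def W0 (w : H205.CP.WF) (pf : H205.CP.PF) (l : V n → ℝ) (g : MF n) (z : VV n) : ℝ :=
  w.φ (u0 l z) + w.G (u0 l z) * pf.Φ (H31.EP.r2 g z)

section

variable {Cs Cd : ℝ} {w : H205.CP.WF} {pf : H205.CP.PF} {I : Set ℝ} {l : V n → ℝ} {g : MF n}

theorem hv_W0 (hp : H205.CP.PD Cs pf) (hw : H205.CP.WD 1 Cd w I) (sl : ContDiff ℝ ∞ l)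
    (sg : ∀ i j, ContDiff ℝ ∞ fun x => g x i j) (sy : ∀ x i j, g x i j = g x j i) (v z : VV n) :
    Hv v (W0 w pf l g) (w.φ₁ (u0 l z) * (fderiv ℝ l z.1 v.1 + fderiv ℝ l z.2 v.2) +
      (w.G₁ (u0 l z) * (fderiv ℝ l z.1 v.1 + fderiv ℝ l z.2 v.2) * pf.Φ (H31.EP.r2 g z) +
        w.G (u0 l z) * (pf.Φ₁ (H31.EP.r2 g z) * (2 * (bf (g (mid z)) (dif v) (dif z) +
          1 / 2 * bf (dg (mid v) g (mid z)) (dif z) (dif z)))))) z :=
  (hv_comp (hw.d1 _) (hv_u sl v z)).add ((hv_comp (hw.e1 _) (hv_u sl v z)).mul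
    (hv_comp (hp.d1 _) (hv_r2 sg sy v z)))

theorem dq_W0 (hp : H205.CP.PD Cs pf) (hw : H205.CP.WD 1 Cd w I) (sl : ContDiff ℝ ∞ l)
    (sg : ∀ i j, ContDiff ℝ ∞ fun x => g x i j) (sy : ∀ x i j, g x i j = g x j i) (i : Fin n)
    (z : VV n) : H205.CP.dq i (W0 w pf l g) z
      = w.φ₁ (u0 l z) * ai l i z + w.G₁ (u0 l z) * pf.Φ (H31.EP.r2 g z) * ai l i z
        + w.G (u0 l z) * (2 * (pf.Φ₁ (H31.EP.r2 g z) * Gq g i z)) := by
  have h : H205.CP.dq i (W0 w pf l g) z = fderiv ℝ (W0 w pf l g) z (va i) := (fd_va _ i z).symm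
  rw [h, (hv_W0 hp hw sl sg sy (va i) z).e, dif_va, mid_va, bf_dg0, bf_single]
  have e1 : fderiv ℝ l z.1 (va i).1 + fderiv ℝ l z.2 (va i).2 = ai l i z := by
    simp only [va, map_smul, map_neg, smul_eq_mul, ai, lI]
    ring
  rw [e1]
  have e2 : ∑ j, g (mid z) i j * dif z j = Gq g i z := rfl
  rw [e2]
  ring

theorem dp_W0 (hp : H205.CP.PD Cs pf) (hw : H205.CP.WD 1 Cd w I) (sl : ContDiff ℝ ∞ l)
    (sg : ∀ i j, ContDiff ℝ ∞ fun x => g x i j) (sy : ∀ x i j, g x i j = g x j i) (i : Fin n)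
    (z : VV n) : H205.CP.dp i (W0 w pf l g) z
      = (w.φ₁ (u0 l z) + w.G₁ (u0 l z) * pf.Φ (H31.EP.r2 g z)) * bi l i z
        + w.G (u0 l z) * (pf.Φ₁ (H31.EP.r2 g z) * hi g i z) := by
  have h : H205.CP.dp i (W0 w pf l g) z = fderiv ℝ (W0 w pf l g) z (vb i) := (fd_vb _ i z).symm
  rw [h, (hv_W0 hp hw sl sg sy (vb i) z).e, dif_vb, mid_vb, bf_zero]
  have e1 : fderiv ℝ l z.1 (vb i).1 + fderiv ℝ l z.2 (vb i).2 = bi l i z := rfl
  rw [e1]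
  unfold hi
  ring

end

/-! ### The instance -/

/-- The pointwise hypotheses. -/
structure Hy (n : ℕ) (κ₀ Cs Cd L ε ε₂ κ c₁ c₀ c K₀ lam ν₀ : ℝ) (w : H205.CP.WF) (I : Set ℝ)
    (l : V n → ℝ) (g : MF n) (O : Set (VV n)) : Prop where
  sl : ContDiff ℝ ∞ l
  sg : ∀ i j, ContDiff ℝ ∞ fun x => g x i j
  sy : ∀ x i j, g x i j = g x j i
  oc : I.OrdConnected
  bd : ∀ z ∈ O, ∀ x, ‖x - z.1‖ ≤ 1 → Bd L ε ε₂ l g x
  uI : ∀ z ∈ O, u0 l z ∈ I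
  kO : ∀ z ∈ O, K₀ ≤ w.φ₂ (u0 l z)
  kE : ∀ z ∈ O, w.φ₂ (u0 l z) ≤ w.G (u0 l z)
  kn : ∀ z ∈ O, w.φ₂ (u0 l z) ≤ 3 * w.φ₁ (u0 l z)
  q0 : ∀ z ∈ O, qq z ≤ c₀ ^ 2
  q1 : ∀ z ∈ O, qq z ≤ c₁ ^ 2
  t0 : ∀ z ∈ O, w.G (u0 l z) * qq z ≤ c * w.φ₂ (u0 l z)
  n1 : ∀ z ∈ O, w.φ₁ (u0 l z) * ε₂ ≤ 1
  n2 : ∀ z ∈ O, w.φ₁ (u0 l z) * ε₂ ≤ κ * Real.sqrt (w.G (u0 l z))
  bb : ∀ z ∈ O, ∃ i, ν₀ ≤ |bi l i z|
  -- the constants
  hn : 1 ≤ n
  hC : 0 ≤ Cs
  hCd : 0 < Cd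
  hL : 1 ≤ L
  hε : 0 ≤ ε
  hε2 : 0 ≤ ε₂
  hκ : 0 ≤ κ
  hc1 : 0 ≤ c₁
  hc1' : c₁ ≤ 1 / 4
  hc2 : 2 * (n : ℝ) ^ 2 * c₁ ^ 2 ≤ 1
  hc3 : 2 * (n : ℝ) ^ 2 * c₁ ^ 2 * Cs ≤ 1 / 2
  hlam : lam ≤ 1
  hlam2 : L * lam ≤ 1 / (4 * (Cd + 3))
  he1 : ε₂ ≤ 1 / (4 * (Cd + 3))
  he2 : (n : ℝ) ^ 2 * ε₂ ≤ 1
  he3 : (n : ℝ) ^ 2 * ε ≤ 1
  he4 : 4 * ε₂ ≤ κ₀
  he5 : 2 * Cd * ε₂ ≤ κ₀
  he6 : 3 * κ ≤ κ₀
  he7 : (60 * L * (1 + Cs) * (n : ℝ) ^ 2) * ε₂ + 16 * ε₂ + 4 * (n * ε)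
    + 160 * Cs * (n : ℝ) ^ 2 * c₁ ^ 2 ≤ κ₀
  he8 : 3 * ((n : ℝ) ^ 2 * ε₂ * c) < ν₀
  K1 : 1 ≤ K₀

/-- The constant `C₂`. -/
def C2 (n : ℕ) (Cs Cd L : ℝ) : ℝ := 100 * (L ^ 2 * (1 + Cs) * (n : ℝ) ^ 2) + 2 * Cd * L

variable {κ₀ Cs Cd L ε ε₂ κ c₁ c₀ c K₀ lam ν₀ : ℝ} {w : H205.CP.WF} {pf : H205.CP.PF} {I : Set ℝ}
  {l : V n → ℝ} {g : MF n} {O : Set (VV n)}

theorem nq_sq (z : VV n) : nq z ^ 2 ≤ qq z := by
  have h0 : 0 ≤ qq z := r2_nonneg (lq := vq) z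
  have h4 := pow_le_pow_left₀ (norm_nonneg _) (vq_norm z) 2
  rwa [Real.sq_sqrt h0] at h4

theorem Hy.nq_le (h : Hy n κ₀ Cs Cd L ε ε₂ κ c₁ c₀ c K₀ lam ν₀ w I l g O) {z : VV n} (hz : z ∈ O) :
    nq z ≤ c₁ := by
  refine (vq_norm z).trans ?_
  rw [Real.sqrt_le_left h.hc1]
  exact h.q1 z hz

theorem Hy.lg (h : Hy n κ₀ Cs Cd L ε ε₂ κ c₁ c₀ c K₀ lam ν₀ w I l g O) {z : VV n} (hz : z ∈ O) :
    Lg L ε ε₂ l g (Metric.closedBall z.1 1) where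
  sl := h.sl
  sg := h.sg
  sy := h.sy
  cv := convex_closedBall _ _
  bd x hx := h.bd z hz x (by rwa [Metric.mem_closedBall, dist_eq_norm] at hx)

theorem Hy.pr (h : Hy n κ₀ Cs Cd L ε ε₂ κ c₁ c₀ c K₀ lam ν₀ w I l g O) {z z' : VV n} (hz : z ∈ O)
    (hz' : z' ∈ O) (hd : dP z z' ≤ lam) : Pr (Metric.closedBall z.1 1) z z' := by
  have h1 := h.nq_le hz
  have h2 := h.nq_le hz'
  have h3 := dQ_le z z'
  have h4 := nx z z'
  have h5 := h.hc1'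
  have h6 := h.hlam
  have hx : ‖z'.1 - z.1‖ ≤ 3 / 4 := by rw [norm_sub_rev]; linarith
  refine ⟨by simp, ?_, ?_, ?_⟩
  · rw [Metric.mem_closedBall, dist_eq_norm, norm_sub_rev]
    have : ‖z.1 - z.2‖ = nq z := rfl
    linarith
  · rw [Metric.mem_closedBall, dist_eq_norm]; linarith
  · rw [Metric.mem_closedBall, dist_eq_norm]
    have e : z'.2 - z.1 = (z'.2 - z'.1) + (z'.1 - z.1) := by abel
    rw [e]
    have h7 := norm_add_le (z'.2 - z'.1) (z'.1 - z.1)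
    have h8 : ‖z'.2 - z'.1‖ = nq z' := norm_sub_rev _ _
    linarith

/-- The difference of the levels. -/
theorem Hy.du (h : Hy n κ₀ Cs Cd L ε ε₂ κ c₁ c₀ c K₀ lam ν₀ w I l g O) {z z' : VV n} (hz : z ∈ O)
    (hz' : z' ∈ O) (hd : dP z z' ≤ lam) :
    |u0 l z - u0 l z'| ≤ L * dP z z' + ε₂ * (nq z + nq z') * dQ z z' ∧
      |u0 l z - u0 l z'| ≤ 1 / (2 * (Cd + 3)) := by
  have h1 := (h.lg hz).du (h.pr hz hz' hd) (by linarith [h.hL]) h.hε2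
  refine ⟨h1, h1.trans ?_⟩
  have h2 : L * dP z z' ≤ L * lam := mul_le_mul_of_nonneg_left hd (by linarith [h.hL])
  have a1 := h.nq_le hz
  have a2 := h.nq_le hz'
  have a3 := dQ_le z z'
  have a4 := h.hc1'
  have a5 := nq_nn z
  have a6 := nq_nn z'
  have a7 := dQ_nn z z'
  have h3 : ε₂ * (nq z + nq z') * dQ z z' ≤ ε₂ * 1 * 1 := by
    have := h.hε2
    gcongr <;> linarith
  have h4 : 1 / (2 * (Cd + 3)) = 1 / (4 * (Cd + 3)) + 1 / (4 * (Cd + 3)) := by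
    have := h.hCd
    field_simp; norm_num
  rw [h4]
  linarith [h.hlam2, h.he1]

theorem Hy.r2b (h : Hy n κ₀ Cs Cd L ε ε₂ κ c₁ c₀ c K₀ lam ν₀ w I l g O) {z : VV n} (hz : z ∈ O)
    {B : Set (V n)} (lg : Lg L ε ε₂ l g B) (hx : z.1 ∈ B) (hy : z.2 ∈ B) :
    0 ≤ H31.EP.r2 g z ∧ H31.EP.r2 g z ≤ 2 * (n : ℝ) ^ 2 * nq z ^ 2 ∧ H31.EP.r2 g z ≤ 1 ∧
      Cs * H31.EP.r2 g z ≤ 1 / 2 := by
  have hn : (1 : ℝ) ≤ n := by exact_mod_cast h.hn
  have hε1 : ε ≤ 1 := by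
    have h1 : (n : ℝ) ^ 2 * ε ≤ 1 := h.he3
    have h2 : 1 * ε ≤ (n : ℝ) ^ 2 * ε := mul_le_mul_of_nonneg_right (by nlinarith) h.hε
    linarith
  have h1 := lg.r2_le hε1 hx hy
  have h2 := lg.r2_ge hx hy
  have h3 := nq_sq z
  have h4 : (n : ℝ) * (n * (ε * nq z ^ 2)) ≤ qq z := by
    calc (n : ℝ) * (n * (ε * nq z ^ 2)) = ((n : ℝ) ^ 2 * ε) * nq z ^ 2 := by ring
      _ ≤ 1 * nq z ^ 2 := mul_le_mul_of_nonneg_right h.he3 (sq_nonneg _)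
      _ ≤ qq z := by linarith
  have h5 : 0 ≤ H31.EP.r2 g z := by linarith [(abs_le.1 h2).1]
  have h6 : H31.EP.r2 g z ≤ 2 * (n : ℝ) ^ 2 * nq z ^ 2 := by
    have := (abs_le.1 h1).2
    linarith
  have h7 : nq z ^ 2 ≤ c₁ ^ 2 := pow_le_pow_left₀ (nq_nn z) (h.nq_le hz) 2
  have h8 : 2 * (n : ℝ) ^ 2 * nq z ^ 2 ≤ 2 * (n : ℝ) ^ 2 * c₁ ^ 2 :=
    mul_le_mul_of_nonneg_left h7 (by positivity)
  refine ⟨h5, h6, by linarith [h.hc2], ?_⟩
  have h9 := mul_le_mul_of_nonneg_left (h6.trans h8) h.hC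
  linarith [h.hc3]

theorem Hy.nm (h : Hy n κ₀ Cs Cd L ε ε₂ κ c₁ c₀ c K₀ lam ν₀ w I l g O)
    (hp : H205.CP.PD Cs pf) (hw : H205.CP.WD 1 Cd w I) {z z' : VV n} (hz : z ∈ O)
    (hz' : z' ∈ O) (hd : dP z z' ≤ lam) :
    Nm ((n : ℝ) ^ 2) L Cs ε ε₂ (w.G (u0 l z)) (w.G₁ (u0 l z)) (w.φ₁ (u0 l z)) (w.φ₂ (u0 l z))
      (pf.Φ (H31.EP.r2 g z)) (pf.Φ₁ (H31.EP.r2 g z)) (nq z) (nq z + nq z') (dQ z z') (dP z z')
      (w.G (u0 l z')) (w.G₁ (u0 l z')) (w.φ₁ (u0 l z'))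
      (pf.Φ (H31.EP.r2 g z')) (pf.Φ₁ (H31.EP.r2 g z')) (nq z') |u0 l z - u0 l z'| := by
  have hn : (1 : ℝ) ≤ n := by exact_mod_cast h.hn
  have hε1 : ε ≤ 1 := by
    have h1 : (n : ℝ) ^ 2 * ε ≤ 1 := h.he3
    have h2 : 1 * ε ≤ (n : ℝ) ^ 2 * ε := mul_le_mul_of_nonneg_right (by nlinarith) h.hε
    linarith
  obtain ⟨d1, d2⟩ := h.du hz hz' hd
  obtain ⟨l1, l2, l3, l4, -⟩ := lev h.oc h.hCd hw (h.uI z hz) (h.uI z' hz') d2
  have p := h.pr hz hz' hd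
  have lg := h.lg hz
  obtain ⟨s1, s2, s3, s4⟩ := h.r2b hz lg p.x p.y
  obtain ⟨s1', s2', s3', s4'⟩ := h.r2b hz' lg p.x' p.y'
  have a1 := h.nq_le hz
  have a2 := h.nq_le hz'
  have a4 := h.hc1'
  have rs := lg.r2_sub hε1 p h.hε2
  have rs' : |H31.EP.r2 g z - H31.EP.r2 g z'| ≤ (n : ℝ) ^ 2 * (2 * ((nq z + nq z') * dQ z z')
      + ε₂ * dP z z' * (nq z + nq z') ^ 2) := by
    refine rs.trans ?_
    have h1 : nq z' ^ 2 ≤ (nq z + nq z') ^ 2 :=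
      pow_le_pow_left₀ (nq_nn _) (by linarith [nq_nn z]) 2
    have h2 : ε₂ * dP z z' * nq z' ^ 2 ≤ ε₂ * dP z z' * (nq z + nq z') ^ 2 :=
      mul_le_mul_of_nonneg_left h1 (mul_nonneg h.hε2 (dP_nn _ _))
    calc (n : ℝ) * (n * (2 * ((nq z + nq z') * dQ z z') + ε₂ * dP z z' * nq z' ^ 2))
        = (n : ℝ) ^ 2 * (2 * ((nq z + nq z') * dQ z z') + ε₂ * dP z z' * nq z' ^ 2) := by ring
      _ ≤ _ := mul_le_mul_of_nonneg_left (by linarith) (by positivity)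
  have T1 : ∀ s, 0 ≤ s → s ≤ 1 → Cs * s ≤ 1 / 2 → |pf.Φ₁ s| ≤ 1 := fun s h0 h1 h2 => by
    have h3 := abs_le.1 (hp.b1 s h0 h1)
    rw [abs_le]; constructor <;> linarith [h3.1, h3.2]
  exact
    { M1 := by nlinarith
      L1 := h.hL
      C1 := h.hC
      e0 := h.hε
      f0 := h.hε2
      f1 := h.he2
      E0 := hw.gp _ (h.uI z hz)
      K1 := h.K1.trans (h.kO z hz)
      KE := h.kE z hz
      q0 := nq_nn _
      q0' := nq_nn _
      qQ := by linarith [nq_nn z']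
      qQ' := by linarith [nq_nn z]
      Q1 := by linarith
      d0 := dQ_nn _ _
      dQ := dQ_le _ _
      p0 := dP_nn _ _
      t0 := abs_nonneg _
      tt := d1
      EE := l2
      DD := l3
      NN := l4
      E2 := l1
      E0' := hw.gp _ (h.uI z' hz')
      D2' := by
        have h1 := abs_le.1 (hw.g1 _ (h.uI z' hz'))
        have h2 := hw.gp _ (h.uI z' hz')
        rw [abs_le]; constructor <;> linarith [h1.1, h1.2]
      S1 := by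
        have h1 := hp.ps _ s1 s3
        rw [abs_of_nonneg h1.1]; linarith [h1.2]
      S1' := by
        have h1 := hp.ps _ s1' s3'
        rw [abs_of_nonneg h1.1]; linarith [h1.2]
      SS := by
        refine (mv (I := Icc 0 1) hp.d1 ordConnected_Icc (M := 1 + Cs) (fun s hs => ?_)
          ⟨s1, s3⟩ ⟨s1', s3'⟩).trans
          (mul_le_mul_of_nonneg_left rs' (by linarith [h.hC]))
        have h3 := abs_le.1 (hp.b1 s hs.1 hs.2)
        have h4 : Cs * s ≤ Cs := mul_le_of_le_one_right h.hC hs.2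
        rw [abs_le]; constructor <;> linarith [h3.1, h3.2, h.hC]
      T0 := by
        have h1 := hp.b1 _ s1 s3
        have e : 2 * pf.Φ₁ (H31.EP.r2 g z) - 1 = 2 * (pf.Φ₁ (H31.EP.r2 g z) - 1 / 2) := by ring
        rw [e, abs_mul, abs_two]
        have h2 := mul_le_mul_of_nonneg_left s2 h.hC
        linarith
      T1 := T1 _ s1 s3 s4
      T1' := T1 _ s1' s3' s4'
      TT := by
        exact (mv (I := Icc 0 1) hp.d2 ordConnected_Icc (M := Cs)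
          (fun s hs => (hp.b2 s hs.1 hs.2).1)
          ⟨s1, s3⟩ ⟨s1', s3'⟩).trans (mul_le_mul_of_nonneg_left rs' h.hC)
      NE' := h.n1 z' hz'
      N0' := (hw.np _ (h.uI z' hz')).le }

/-- **The cells of the curved weight.** -/
theorem cel_W (h : Hy n κ₀ Cs Cd L ε ε₂ κ c₁ c₀ c K₀ lam ν₀ w I l g O)
    (hp : H205.CP.PD Cs pf) (hw : H205.CP.WD 1 Cd w I) {W : VV n → ℝ}
    (hW : ∀ z ∈ O, W =ᶠ[𝓝 z] W0 w pf l g) :
    H205.CP.Cel κ₀ (C2 n Cs Cd L) c₀ c K₀ lam W (fun z => w.G (u0 l z))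
      (fun z => w.φ₂ (u0 l z)) O := by
  have hn : (1 : ℝ) ≤ n := by exact_mod_cast h.hn
  have hn2 : (n : ℝ) ≤ (n : ℝ) ^ 2 := by nlinarith
  have eq : ∀ z ∈ O, ∀ i, H205.CP.dq i W z = H205.CP.dq i (W0 w pf l g) z := fun z hz i => by
    unfold H205.CP.dq dx dy
    rw [(hW z hz).fderiv_eq]
  have ep : ∀ z ∈ O, ∀ i, H205.CP.dp i W z = H205.CP.dp i (W0 w pf l g) z := fun z hz i => by
    unfold H205.CP.dp dx dy
    rw [(hW z hz).fderiv_eq]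
  have hL := h.hL
  have hC := h.hC
  have hCd := h.hCd
  obtain ⟨c1, c2, c3, c4, c5, c6, c7, c8⟩ := consts (M := (n : ℝ) ^ 2) hL hC (by nlinarith)
  have C0 : 0 ≤ C2 n Cs Cd L := by unfold C2; positivity
  refine
    { k0 := h.kO
      r0 := h.q0
      t0 := h.t0
      np := ?_
      ef := ?_
      kf := ?_
      wq := ?_
      wp := ?_ }
  · intro z hz
    obtain ⟨i, hi'⟩ := h.bb z hz
    refine ⟨i, ?_⟩
    rw [ep z hz, dp_W0 hp hw h.sl h.sg h.sy]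
    have lg := h.lg hz
    have hx : z.1 ∈ Metric.closedBall z.1 (1 : ℝ) := by simp
    have hy : z.2 ∈ Metric.closedBall z.1 (1 : ℝ) := by
      rw [Metric.mem_closedBall, dist_eq_norm, norm_sub_rev]
      have : ‖z.1 - z.2‖ = nq z := rfl
      linarith [h.nq_le hz, h.hc1']
    obtain ⟨s1, s2, s3, s4⟩ := h.r2b hz lg hx hy
    have hG := hw.gp _ (h.uI z hz)
    have hN := hw.np _ (h.uI z hz)
    have hG1 : 0 ≤ w.G₁ (u0 l z) := by
      have h1 := abs_le.1 (hw.g1 _ (h.uI z hz))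
      linarith [h1.1]
    have hS := (hp.ps _ s1 s3).1
    have hT : |pf.Φ₁ (H31.EP.r2 g z)| ≤ 1 := by
      have h3 := abs_le.1 (hp.b1 _ s1 s3)
      rw [abs_le]; constructor <;> linarith [h3.1, h3.2]
    have h1 := lg.hi_le hx hy i
    have h3 := nq_sq z
    have h4 : |w.G (u0 l z) * (pf.Φ₁ (H31.EP.r2 g z) * hi g i z)|
        ≤ (n : ℝ) ^ 2 * ε₂ * c * (3 * w.φ₁ (u0 l z)) := by
      rw [abs_mul, abs_of_pos hG]
      have h5 := abs_mul_le hT h1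
      have hc' : 0 ≤ c ∨ c < 0 := le_or_gt 0 c
      have h6 : w.G (u0 l z) * (1 * (n * (n * (ε₂ * nq z ^ 2))))
          ≤ (n : ℝ) ^ 2 * ε₂ * (c * w.φ₂ (u0 l z)) := by
        have h7 := h.t0 z hz
        have h8 : w.G (u0 l z) * nq z ^ 2 ≤ w.G (u0 l z) * qq z :=
          mul_le_mul_of_nonneg_left h3 hG.le
        have h9 := mul_le_mul_of_nonneg_left (h8.trans h7)
          (by have := h.hε2; positivity : 0 ≤ (n : ℝ) ^ 2 * ε₂)
        calc _ = (n : ℝ) ^ 2 * ε₂ * (w.G (u0 l z) * nq z ^ 2) := by ring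
          _ ≤ _ := h9
      have hc0 : 0 ≤ c := by
        by_contra hc
        push Not at hc
        have h7 := h.t0 z hz
        have h8 : 0 ≤ w.G (u0 l z) * qq z :=
          mul_nonneg hG.le (r2_nonneg (lq := vq) z)
        have h9 : c * w.φ₂ (u0 l z) < 0 := mul_neg_of_neg_of_pos hc (hw.kp _ (h.uI z hz))
        linarith
      have h10 : (n : ℝ) ^ 2 * ε₂ * (c * w.φ₂ (u0 l z))
          ≤ (n : ℝ) ^ 2 * ε₂ * (c * (3 * w.φ₁ (u0 l z))) := by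
        have := h.kn z hz
        have := h.hε2
        gcongr
      calc _ ≤ w.G (u0 l z) * (1 * (n * (n * (ε₂ * nq z ^ 2)))) :=
            mul_le_mul_of_nonneg_left h5 hG.le
        _ ≤ _ := h6
        _ ≤ _ := h10
        _ = _ := by ring
    intro h0
    have h5 : |(w.φ₁ (u0 l z) + w.G₁ (u0 l z) * pf.Φ (H31.EP.r2 g z)) * bi l i z|
        = |w.G (u0 l z) * (pf.Φ₁ (H31.EP.r2 g z) * hi g i z)| := by
      rw [← abs_neg (w.G (u0 l z) * (pf.Φ₁ (H31.EP.r2 g z) * hi g i z))]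
      congr 1
      linarith
    rw [abs_mul, abs_of_pos (by positivity :
      0 < w.φ₁ (u0 l z) + w.G₁ (u0 l z) * pf.Φ (H31.EP.r2 g z))] at h5
    have h6 : w.φ₁ (u0 l z) * ν₀
        ≤ (w.φ₁ (u0 l z) + w.G₁ (u0 l z) * pf.Φ (H31.EP.r2 g z)) * |bi l i z| := by
      have h7 : 0 ≤ w.G₁ (u0 l z) * pf.Φ (H31.EP.r2 g z) := mul_nonneg hG1 hS
      have h8 := mul_le_mul_of_nonneg_left hi' hN.le
      have h9 := mul_nonneg h7 (abs_nonneg (bi l i z))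
      linarith
    have h7 := mul_lt_mul_of_pos_left h.he8 hN
    linarith
  · intro z hz z' hz' hd
    obtain ⟨d1, d2⟩ := h.du hz hz' hd
    obtain ⟨l1, l2, l3, l4, l5⟩ := lev h.oc h.hCd hw (h.uI z hz) (h.uI z' hz') d2
    have hG := hw.gp _ (h.uI z hz)
    have nm := h.nm hp hw hz hz' hd
    have e1 : ε₂ * (nq z + nq z') * dQ z z' ≤ ε₂ * 1 * 1 := by
      have := nm.f0
      have := nm.Q1
      have := nm.d0
      have := nm.dQ
      gcongr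
      linarith
    have h1 : |u0 l z - u0 l z'| ≤ L * dP z z' + ε₂ := by linarith
    have h2 := mul_le_mul_of_nonneg_left h1 (by positivity : 0 ≤ 4 * w.G (u0 l z))
    have h3 : 4 * L ≤ C2 n Cs Cd L := by
      unfold C2
      have : 0 ≤ 2 * Cd * L := by positivity
      linarith
    have h4 : 4 * L * dP z z' + 4 * ε₂ ≤ C2 n Cs Cd L * dP z z' + κ₀ :=
      add_le_add (mul_le_mul_of_nonneg_right h3 (dP_nn _ _)) h.he4
    have h5 := mul_le_mul_of_nonneg_left h4 hG.le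
    show |w.G (u0 l z) - w.G (u0 l z')| ≤ w.G (u0 l z) * (C2 n Cs Cd L * dP z z' + κ₀)
    linarith
  · intro z hz z' hz' hd
    obtain ⟨d1, d2⟩ := h.du hz hz' hd
    obtain ⟨l1, l2, l3, l4, l5⟩ := lev h.oc h.hCd hw (h.uI z hz) (h.uI z' hz') d2
    have hK := hw.kp _ (h.uI z hz)
    have nm := h.nm hp hw hz hz' hd
    have e1 : ε₂ * (nq z + nq z') * dQ z z' ≤ ε₂ * 1 * 1 := by
      have := nm.f0
      have := nm.Q1
      have := nm.d0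
      have := nm.dQ
      gcongr
      linarith
    have h1 : |u0 l z - u0 l z'| ≤ L * dP z z' + ε₂ := by linarith
    have h2 := mul_le_mul_of_nonneg_left h1 (by positivity : 0 ≤ 2 * Cd * w.φ₂ (u0 l z))
    have h3 : 2 * Cd * L ≤ C2 n Cs Cd L := by
      unfold C2
      linarith
    have h4 : 2 * Cd * L * dP z z' + 2 * Cd * ε₂ ≤ C2 n Cs Cd L * dP z z' + κ₀ :=
      add_le_add (mul_le_mul_of_nonneg_right h3 (dP_nn _ _)) h.he5
    have h5 := mul_le_mul_of_nonneg_left h4 hK.le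
    show |w.φ₂ (u0 l z) - w.φ₂ (u0 l z')| ≤ w.φ₂ (u0 l z) * (C2 n Cs Cd L * dP z z' + κ₀)
    linarith
  · intro z hz z' hz' hd i
    have nm := h.nm hp hw hz hz' hd
    have p := h.pr hz hz' hd
    have lg := h.lg hz
    have ab := nm.ab
    rw [eq z hz, eq z' hz', dq_W0 hp hw h.sl h.sg h.sy, dq_W0 hp hw h.sl h.sg h.sy]
    have b1 := nm.k1 h.hκ (hw.np _ (h.uI z hz)).le (lg.ai_le p.x p.y h.hε2 i)
      (lg.ai_le p.x' p.y' h.hε2 i) (h.n2 z hz) (h.n2 z' hz')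
    have b2 := nm.k2 (lg.ai_le p.x p.y h.hε2 i) (lg.ai_sub p h.hε2 i)
    have hδ0 : 0 ≤ n * ε := by have := h.hε; positivity
    have hδ1 : n * ε ≤ 1 := le_trans (mul_le_mul_of_nonneg_right hn2 h.hε) h.he3
    have b3 := nm.k3 (c := H205.CP.vq z i) (c' := H205.CP.vq z' i) (g := Gq g i z)
      (g' := Gq g i z') hδ0 hδ1 (qi_le z i) (qi_le z' i) (dqi_le z z' i)
      ((lg.Gq_le p.x p.y i).trans (le_of_eq (by ring)))
      ((lg.Gq_le p.x' p.y' i).trans (le_of_eq (by ring)))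
      ((lg.Gq_sub p h.hε2 i).trans (by
        have h1 : nq z' ≤ nq z + nq z' := nm.qQ'
        have h2 : ε₂ * dP z z' * nq z' ≤ ε₂ * dP z z' * (nq z + nq z') :=
          mul_le_mul_of_nonneg_left h1 (mul_nonneg h.hε2 (dP_nn _ _))
        have h3 : (n : ℝ) * (ε₂ * dP z z' * (nq z + nq z'))
            ≤ (n : ℝ) ^ 2 * (ε₂ * dP z z' * (nq z + nq z')) := by
          apply mul_le_mul_of_nonneg_right hn2
          have := h.hε2
          have := dP_nn z z'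
          have := ab.Q0
          positivity
        have h4 := mul_le_mul_of_nonneg_left h2 (by positivity : 0 ≤ (n : ℝ))
        linarith))
    have e : (w.φ₁ (u0 l z) * ai l i z + w.G₁ (u0 l z) * pf.Φ (H31.EP.r2 g z) * ai l i z
        + w.G (u0 l z) * (2 * (pf.Φ₁ (H31.EP.r2 g z) * Gq g i z)))
        - (w.φ₁ (u0 l z') * ai l i z' + w.G₁ (u0 l z') * pf.Φ (H31.EP.r2 g z') * ai l i z'
        + w.G (u0 l z') * (2 * (pf.Φ₁ (H31.EP.r2 g z') * Gq g i z')))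
        - w.G (u0 l z') * (H205.CP.vq z i - H205.CP.vq z' i)
        = (w.φ₁ (u0 l z) * ai l i z - w.φ₁ (u0 l z') * ai l i z')
        + (w.G₁ (u0 l z) * pf.Φ (H31.EP.r2 g z) * ai l i z
          - w.G₁ (u0 l z') * pf.Φ (H31.EP.r2 g z') * ai l i z')
        + ((w.G (u0 l z) * (2 * (pf.Φ₁ (H31.EP.r2 g z) * Gq g i z))
          - w.G (u0 l z') * (2 * (pf.Φ₁ (H31.EP.r2 g z') * Gq g i z')))
          - w.G (u0 l z') * (H205.CP.vq z i - H205.CP.vq z' i)) := by ring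
    rw [e]
    refine (abs_tri b1 b2 b3).trans ?_
    show _ ≤ κ₀ * w.G (u0 l z) * dQ z z' + C2 n Cs Cd L * w.G (u0 l z) * (nq z + nq z')
      * dP z z' + κ₀ * Real.sqrt (w.G (u0 l z))
    have hG := (hw.gp _ (h.uI z hz)).le
    have sG : 0 ≤ Real.sqrt (w.G (u0 l z)) := Real.sqrt_nonneg _
    have X0 : 0 ≤ w.G (u0 l z) * dQ z z' := mul_nonneg hG (dQ_nn _ _)
    have Y0 : 0 ≤ w.G (u0 l z) * ((nq z + nq z') * dP z z') :=
      mul_nonneg hG (mul_nonneg ab.Q0 (dP_nn _ _))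
    have j1 : 3 * κ * Real.sqrt (w.G (u0 l z)) ≤ κ₀ * Real.sqrt (w.G (u0 l z)) :=
      mul_le_mul_of_nonneg_right h.he6 sG
    have hQ2 : (nq z + nq z') ^ 2 ≤ 4 * c₁ ^ 2 := by
      have h1 : nq z + nq z' ≤ 2 * c₁ := by linarith [h.nq_le hz, h.nq_le hz']
      have h2 := pow_le_pow_left₀ ab.Q0 h1 2
      linarith
    have j2 : (60 * L * (1 + Cs) * (n : ℝ) ^ 2) * ε₂ + (16 * ε₂ + 4 * (n * ε)
        + 40 * Cs * (n : ℝ) ^ 2 * (nq z + nq z') ^ 2) ≤ κ₀ := by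
      have h1 : 40 * Cs * (n : ℝ) ^ 2 * (nq z + nq z') ^ 2
          ≤ 40 * Cs * (n : ℝ) ^ 2 * (4 * c₁ ^ 2) :=
        mul_le_mul_of_nonneg_left hQ2 (by positivity)
      linarith [h.he7]
    have j3 : (60 * L * (1 + Cs) * (n : ℝ) ^ 2) * ε₂ + (16 * L + 40 * (1 + Cs) * (n : ℝ) ^ 2)
        ≤ C2 n Cs Cd L := by
      have h0 : ε₂ ≤ 1 / 12 := by
        refine h.he1.trans ?_
        apply one_div_le_one_div_of_le (by norm_num)
        linarith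
      have h1 : (60 * L * (1 + Cs) * (n : ℝ) ^ 2) * ε₂
          ≤ (60 * L * (1 + Cs) * (n : ℝ) ^ 2) * (1 / 12) :=
        mul_le_mul_of_nonneg_left h0 (by positivity)
      have h2 : (1 + Cs) * (n : ℝ) ^ 2 ≤ L ^ 2 * (1 + Cs) * (n : ℝ) ^ 2 := by
        have : 1 * (1 + Cs) * (n : ℝ) ^ 2 ≤ L ^ 2 * (1 + Cs) * (n : ℝ) ^ 2 := by
          gcongr
          nlinarith
        linarith
      unfold C2
      have : 0 ≤ 2 * Cd * L := by positivity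
      linarith
    have m2 := mul_le_mul_of_nonneg_right j2 X0
    have m3 := mul_le_mul_of_nonneg_right j3 Y0
    linarith
  · intro z hz z' hz' hd i
    have nm := h.nm hp hw hz hz' hd
    have p := h.pr hz hz' hd
    have lg := h.lg hz
    rw [ep z hz, ep z' hz', dp_W0 hp hw h.sl h.sg h.sy, dp_W0 hp hw h.sl h.sg h.sy]
    have b := nm.wp (lg.bi_le p.x p.y i) (lg.bi_sub p h.hε2 i)
      ((lg.hi_le p.x p.y i).trans (le_of_eq (by ring)))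
      ((lg.hi_sub p h.hε2 i).trans (by
        have h1 : nq z' ^ 2 ≤ (nq z + nq z') ^ 2 :=
          pow_le_pow_left₀ (nq_nn _) (by linarith [nq_nn z]) 2
        have h2 : ε₂ * dP z z' * nq z' ^ 2 ≤ ε₂ * dP z z' * (nq z + nq z') ^ 2 :=
          mul_le_mul_of_nonneg_left h1 (mul_nonneg h.hε2 (dP_nn _ _))
        have h3 := mul_le_mul_of_nonneg_left h2 (by positivity : 0 ≤ (n : ℝ) ^ 2)
        linarith))
    refine b.trans ?_
    show _ ≤ C2 n Cs Cd L * ((w.φ₂ (u0 l z) + w.G (u0 l z) * (nq z + nq z') ^ 2) * dP z z'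
      + w.G (u0 l z) * (nq z + nq z') * dQ z z' + Real.sqrt (w.φ₂ (u0 l z)))
    have ab := nm.ab
    apply mul_le_mul_of_nonneg_right
    · unfold C2
      have : 0 ≤ 2 * Cd * L := by positivity
      linarith
    · have := ab.A0
      have := ab.B0
      have := Real.sqrt_nonneg (w.φ₂ (u0 l z))
      linarith

end Vale.Agent.P088.R2.H960.C
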